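import Mathlib

namespace Vale.Agent.Lib.P190

open IsLocalRing RingTheory.Sequence Polynomial

/-- Every element of a unique factorization domain is a square times a squarefree element. -/
theorem exists_sq_mul_squarefree {A : Type*} [CommRing A] [IsDomain A]
    [UniqueFactorizationMonoid A] (d : A) :
    ∃ s d0 : A, d = s ^ 2 * d0 ∧ Squarefree d0 := by
  induction d using UniqueFactorizationMonoid.induction_on_prime with
  | h₁ => exact ⟨0, 1, by ring, squarefree_one⟩
  | h₂ x hx => exact ⟨1, x, by ring, hx.squarefree⟩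
  | h₃ a p ha0 hp ih =>
    obtain ⟨s, d0, hsd, hsq⟩ := ih
    by_cases hpd : p ∣ d0
    · obtain ⟨d1, rfl⟩ := hpd
      exact ⟨p * s, d1, by rw [hsd]; ring, hsq.squarefree_of_dvd (Dvd.intro_left p rfl)⟩
    · refine ⟨s, p * d0, by rw [hsd]; ring, ?_⟩
      rw [squarefree_mul_iff]
      exact ⟨(hp.irreducible.isRelPrime_iff_not_dvd).mpr hpd, hp.irreducible.squarefree, hsq⟩

/-- Krull dimension does not go up along an integral ring map. -/
theorem ringKrullDim_le_of_isIntegral (A R : Type*) [CommRing A] [CommRing R] [Algebra A R]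
    [Algebra.IsIntegral A R] : ringKrullDim R ≤ ringKrullDim A :=
  Order.krullDim_le_of_strictMono
    (fun I : PrimeSpectrum R =>
      (⟨Ideal.comap (algebraMap A R) I.asIdeal, inferInstance⟩ : PrimeSpectrum A))
    (fun I J hIJ => Ideal.IsIntegral.comap_lt_comap (R := A) (I := I.asIdeal) (J := J.asIdeal) hIJ)

section Quad

variable {A K L : Type*} [CommRing A] [IsDomain A] [UniqueFactorizationMonoid A]
  [Field K] [Field L] [Algebra A K] [IsFractionRing A K] [Algebra K L] [Algebra A L]
  [IsScalarTower A K L]

omit [CommRing A] [IsDomain A] [UniqueFactorizationMonoid A] [Algebra A K] [IsFractionRing A K]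
  [Algebra A L] [IsScalarTower A K L] in
/-- In a degree two field extension, `1` and any element outside the base field span. -/
theorem exists_pair_repr (hdeg : Module.finrank K L = 2) {ω : L}
    (hω : ω ∉ (algebraMap K L).range) (y : L) :
    ∃ u v : K, y = algebraMap K L u + algebraMap K L v * ω := by
  have hli : LinearIndependent K ![(1 : L), ω] := by
    rw [LinearIndependent.pair_iff]
    intro s t hst
    have ht : t = 0 := by
      by_contra ht
      apply hω
      refine ⟨-s / t, ?_⟩
      rw [Algebra.smul_def, Algebra.smul_def, mul_one] at hst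
      have ht' : algebraMap K L t ≠ 0 := by
        simpa using ht
      rw [map_div₀, map_neg]
      field_simp
      linear_combination -hst
    subst ht
    simp only [zero_smul, add_zero] at hst
    rw [Algebra.smul_def, mul_one] at hst
    exact ⟨by simpa using hst, rfl⟩
  have hfd : FiniteDimensional K L := Module.finite_of_finrank_pos (by omega)
  have hspan := hli.span_eq_top_of_card_eq_finrank' (by simp [hdeg])
  have hy : y ∈ Submodule.span K (Set.range ![(1 : L), ω]) := by rw [hspan]; trivial
  have hr : Set.range ![(1 : L), ω] = {1, ω} := by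
    ext z
    simp only [Matrix.range_cons, Matrix.range_empty, Set.union_empty, Set.mem_union,
      Set.mem_singleton_iff, Set.mem_insert_iff]
  rw [hr, Submodule.mem_span_pair] at hy
  obtain ⟨u, v, huv⟩ := hy
  refine ⟨u, v, ?_⟩
  rw [← huv, Algebra.smul_def, Algebra.smul_def, mul_one]

/-- Integral elements of `L = K(ω)` with `ω ^ 2 = d0` squarefree lie in `A + A ω` when `2` is
a unit of `A`. -/
theorem integral_mem_pair (h2 : IsUnit (2 : A)) (hdeg : Module.finrank K L = 2) {ω : L} {d0 : A}
    (hsq : Squarefree d0) (hω2 : ω ^ 2 = algebraMap A L d0)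
    (hω : ω ∉ (algebraMap K L).range) {y : L} (hy : IsIntegral A y) :
    ∃ a b : A, y = algebraMap A L a + algebraMap A L b * ω := by
  obtain ⟨u, v, rfl⟩ := exists_pair_repr hdeg hω y
  have hinjKL : Function.Injective (algebraMap K L) := (algebraMap K L).injective
  have hinjAK : Function.Injective (algebraMap A K) := IsFractionRing.injective A K
  have hALK : ∀ a : A, algebraMap A L a = algebraMap K L (algebraMap A K a) :=
    fun a => IsScalarTower.algebraMap_apply A K L a
  by_cases hv : v = 0
  · subst hv
    simp only [map_zero, zero_mul, add_zero] at hy ⊢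
    have hu : IsIntegral A u := (isIntegral_algebraMap_iff hinjKL).mp hy
    obtain ⟨a, ha⟩ := IsIntegrallyClosed.isIntegral_iff.mp hu
    exact ⟨a, 0, by rw [hALK, ha]; simp⟩
  · have hv' : algebraMap K L v ≠ 0 := by simpa using hv
    have hyK : algebraMap K L u + algebraMap K L v * ω ∉ (algebraMap K L).range := by
      rintro ⟨k, hk⟩
      apply hω
      refine ⟨(k - u) / v, ?_⟩
      rw [map_div₀, map_sub, hk]
      field_simp
      ring
    have hfd : FiniteDimensional K L := Module.finite_of_finrank_pos (by omega)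
    have hyintK : IsIntegral K (algebraMap K L u + algebraMap K L v * ω) := hy.tower_top
    have hdeg2 : (minpoly K (algebraMap K L u + algebraMap K L v * ω)).natDegree = 2 := by
      have h1 := (minpoly.two_le_natDegree_iff hyintK).mpr hyK
      have h3 := minpoly.natDegree_le (A := K) (algebraMap K L u + algebraMap K L v * ω)
      omega
    have hmap : minpoly K (algebraMap K L u + algebraMap K L v * ω) =
        (minpoly A (algebraMap K L u + algebraMap K L v * ω)).map (algebraMap A K) :=
      minpoly.isIntegrallyClosed_eq_field_fractions' K hy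
    obtain ⟨q, hq⟩ : ∃ q : K, q = u ^ 2 - v ^ 2 * algebraMap A K d0 := ⟨_, rfl⟩
    obtain ⟨p, hp⟩ : ∃ p : K, p = -(2 * u) := ⟨_, rfl⟩
    obtain ⟨Q, hQ⟩ : ∃ Q : K[X], Q = C 1 * X ^ 2 + C p * X + C q := ⟨_, rfl⟩
    have hQdeg : Q.natDegree = 2 := by rw [hQ]; exact natDegree_quadratic one_ne_zero
    have hQmonic : Q.Monic := by
      rw [Monic, hQ]; exact leadingCoeff_quadratic one_ne_zero
    have hQy : aeval (algebraMap K L u + algebraMap K L v * ω) Q = 0 := by
      rw [hQ, hp, hq]
      simp only [map_add, map_mul, map_pow, aeval_X, aeval_C, map_one, map_neg, map_sub,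
        map_ofNat, ← IsScalarTower.algebraMap_apply A K L, ← hω2]
      ring
    have hQeq : Q = minpoly K (algebraMap K L u + algebraMap K L v * ω) :=
      eq_of_monic_of_dvd_of_natDegree_le (minpoly.monic hyintK) hQmonic
        (minpoly.dvd K _ hQy) (by omega)
    have hc1 : algebraMap A K ((minpoly A (algebraMap K L u + algebraMap K L v * ω)).coeff 1) =
        -(2 * u) := by
      have := congrArg (fun p => p.coeff 1) (hmap.symm.trans hQeq.symm)
      simp only [coeff_map] at this
      rw [this, hQ, ← hp]
      simp [coeff_C]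
    have hc0 : algebraMap A K ((minpoly A (algebraMap K L u + algebraMap K L v * ω)).coeff 0) =
        u ^ 2 - v ^ 2 * algebraMap A K d0 := by
      have := congrArg (fun p => p.coeff 0) (hmap.symm.trans hQeq.symm)
      simp only [coeff_map] at this
      rw [this, hQ, ← hq]
      simp [coeff_X, coeff_C]
    obtain ⟨c1, hc1def⟩ : ∃ c1, c1 = (minpoly A (algebraMap K L u + algebraMap K L v * ω)).coeff 1 :=
      ⟨_, rfl⟩
    obtain ⟨c0, hc0def⟩ : ∃ c0, c0 = (minpoly A (algebraMap K L u + algebraMap K L v * ω)).coeff 0 :=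
      ⟨_, rfl⟩
    rw [← hc1def] at hc1
    rw [← hc0def] at hc0
    obtain ⟨w2, hw2⟩ := h2.exists_left_inv
    have h22 : algebraMap A K w2 * 2 = 1 := by
      have := congrArg (algebraMap A K) hw2
      simpa only [map_mul, map_ofNat, map_one] using this
    have hu : u = algebraMap A K (-(c1 * w2)) := by
      rw [map_neg, map_mul, hc1]
      linear_combination (-u) * h22
    have he : v ^ 2 * algebraMap A K d0 = algebraMap A K ((-(c1 * w2)) ^ 2 - c0) := by
      rw [map_sub, map_pow, ← hu, hc0]; ring
    have hvδ : IsIntegral A (v * algebraMap A K d0) := by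
      refine ⟨X ^ 2 - C (((-(c1 * w2)) ^ 2 - c0) * d0), monic_X_pow_sub_C _ (by norm_num), ?_⟩
      rw [eval₂_sub, eval₂_pow, eval₂_X, eval₂_C, map_mul, ← he]
      ring
    obtain ⟨f, hf⟩ := IsIntegrallyClosed.isIntegral_iff.mp hvδ
    have hf2 : f ^ 2 = ((-(c1 * w2)) ^ 2 - c0) * d0 := by
      apply hinjAK
      rw [map_pow, hf, map_mul, ← he]; ring
    have hdvd : d0 ∣ f := by
      have : d0 ∣ f ^ 2 := ⟨(-(c1 * w2)) ^ 2 - c0, by rw [hf2]; ring⟩
      exact (hsq.dvd_pow_iff_dvd two_ne_zero).mp this
    obtain ⟨g, rfl⟩ := hdvd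
    have hd0 : d0 ≠ 0 := hsq.ne_zero
    have hδ0 : algebraMap A K d0 ≠ 0 := by
      intro h0
      exact hd0 (hinjAK (by rw [h0, map_zero]))
    have hvg : v = algebraMap A K g := by
      have : v * algebraMap A K d0 = algebraMap A K g * algebraMap A K d0 := by
        rw [← hf, map_mul]; ring
      exact mul_right_cancel₀ hδ0 this
    refine ⟨-(c1 * w2), g, ?_⟩
    rw [hALK, hALK, ← hu, ← hvg]

end Quad


section Cover

variable {A R K L : Type*} [CommRing A] [IsDomain A] [UniqueFactorizationMonoid A]
  [CommRing R] [Algebra A R] [Algebra.IsIntegral A R]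
  [Field K] [Field L] [Algebra A K] [IsFractionRing A K] [Algebra R L] [IsFractionRing R L]
  [Algebra K L] [Algebra A L] [IsScalarTower A K L] [IsScalarTower A R L]

/-- A degree two extension of fraction fields, `2` a unit: the top field is generated by a square
root `ω` of a squarefree element of `A`. -/
theorem exists_omega (R : Type*) [CommRing R] [Algebra A R] [Algebra.IsIntegral A R]
    [Algebra R L] [IsFractionRing R L] [IsScalarTower A R L]
    (h2 : IsUnit (2 : A)) (hdeg : Module.finrank K L = 2) :
    ∃ (ω : L) (d0 : A), Squarefree d0 ∧ ω ^ 2 = algebraMap A L d0 ∧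
      ω ∉ (algebraMap K L).range := by
  obtain ⟨θ, hθ⟩ : ∃ θ : R, algebraMap R L θ ∉ (algebraMap K L).range := by
    by_contra hcon
    push Not at hcon
    have hsurj : ∀ y : L, ∃ c : K, c • (1 : L) = y := by
      intro y
      obtain ⟨a, b, hb, rfl⟩ := IsFractionRing.div_surjective (A := R) y
      obtain ⟨ka, hka⟩ := hcon a
      obtain ⟨kb, hkb⟩ := hcon b
      refine ⟨ka / kb, ?_⟩
      rw [Algebra.smul_def, mul_one, map_div₀, hka, hkb]
    have := finrank_le_one (1 : L) hsurj
    omega
  obtain ⟨x, hx⟩ : ∃ x : L, x = algebraMap R L θ := ⟨_, rfl⟩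
  rw [← hx] at hθ
  have hxint : IsIntegral A x := by
    rw [hx]; exact (Algebra.IsIntegral.isIntegral (R := A) θ).algebraMap
  have hfd : FiniteDimensional K L := Module.finite_of_finrank_pos (by omega)
  have hxintK : IsIntegral K x := hxint.tower_top
  have hdeg2 : (minpoly K x).natDegree = 2 := by
    have h1 := (minpoly.two_le_natDegree_iff hxintK).mpr hθ
    have h3 := minpoly.natDegree_le (A := K) x
    omega
  have hmap : minpoly K x = (minpoly A x).map (algebraMap A K) :=
    minpoly.isIntegrallyClosed_eq_field_fractions' K hxint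
  obtain ⟨P, hP⟩ : ∃ P : A[X], P = minpoly A x := ⟨_, rfl⟩
  have hPmonic : P.Monic := by rw [hP]; exact minpoly.monic hxint
  have hPdeg : P.natDegree = 2 := by
    rw [hmap, ← hP, hPmonic.natDegree_map] at hdeg2; exact hdeg2
  have hPx : aeval x P = 0 := by rw [hP]; exact minpoly.aeval A x
  obtain ⟨b, hb⟩ : ∃ b, b = P.coeff 1 := ⟨_, rfl⟩
  obtain ⟨c, hc⟩ : ∃ c, c = P.coeff 0 := ⟨_, rfl⟩
  have hrel : x ^ 2 + algebraMap A L b * x + algebraMap A L c = 0 := by
    have h0 := hPx
    rw [hPmonic.as_sum, hPdeg] at h0
    simp only [Finset.sum_range_succ, Finset.sum_range_zero, map_add, map_mul, map_pow, aeval_X,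
      aeval_C, pow_zero, pow_one, mul_one, zero_add, ← hb, ← hc] at h0
    linear_combination h0
  obtain ⟨w2, hw2⟩ := h2.exists_left_inv
  have h22 : algebraMap A L w2 * 2 = 1 := by
    have := congrArg (algebraMap A L) hw2
    simpa only [map_mul, map_ofNat, map_one] using this
  have hηsq : (2 * x + algebraMap A L b) ^ 2 = algebraMap A L (b ^ 2 - 4 * c) := by
    simp only [map_sub, map_mul, map_pow, map_ofNat]
    linear_combination 4 * hrel
  obtain ⟨s, d0, hd, hsq⟩ := exists_sq_mul_squarefree (b ^ 2 - 4 * c)
  have hinjAL : Function.Injective (algebraMap A L) := by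
    rw [IsScalarTower.algebraMap_eq A K L]
    exact (algebraMap K L).injective.comp (IsFractionRing.injective A K)
  have hs : s ≠ 0 := by
    rintro rfl
    have hd0 : b ^ 2 - 4 * c = 0 := by rw [hd]; ring
    rw [hd0, map_zero] at hηsq
    have hη : 2 * x + algebraMap A L b = 0 := by simpa using hηsq
    apply hθ
    refine ⟨algebraMap A K (-(b * w2)), ?_⟩
    rw [← IsScalarTower.algebraMap_apply A K L, map_neg, map_mul]
    linear_combination (-(algebraMap A L w2)) * hη + x * h22
  have hs' : algebraMap A L s ≠ 0 := fun h0 => hs (hinjAL (by rw [h0, map_zero]))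
  refine ⟨(2 * x + algebraMap A L b) / algebraMap A L s, d0, hsq, ?_, ?_⟩
  · rw [div_pow, hηsq, hd, map_mul, map_pow]
    field_simp
  · rintro ⟨k, hk⟩
    apply hθ
    refine ⟨(algebraMap A K s * k - algebraMap A K b) * algebraMap A K w2, ?_⟩
    rw [map_mul, map_sub, map_mul, ← IsScalarTower.algebraMap_apply A K L,
      ← IsScalarTower.algebraMap_apply A K L, ← IsScalarTower.algebraMap_apply A K L, hk,
      mul_div_cancel₀ _ hs']
    linear_combination x * h22

end Cover

universe u

/-- Quadratic covers: let `A` be a Noetherian local unique factorization domain in which `2` is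
a unit and which carries a regular sequence of length `dim A` in its maximal ideal. Let `R` be a
local domain, module-finite over `A`, whose fraction field `L` has degree two over the fraction
field `K` of `A`. Then `R` has a finitely generated module with a regular sequence of length
`dim R` contained in the maximal ideal of `R`. -/
theorem quadratic_cover (A R K L : Type u) [CommRing A] [IsDomain A] [IsLocalRing A]
    [IsNoetherianRing A] [UniqueFactorizationMonoid A]
    [CommRing R] [IsDomain R] [IsLocalRing R] [Algebra A R] [Module.Finite A R]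
    [Field K] [Field L] [Algebra A K] [IsFractionRing A K] [Algebra R L] [IsFractionRing R L]
    [Algebra K L] [Algebra A L] [IsScalarTower A K L] [IsScalarTower A R L]
    (h2 : IsUnit (2 : A)) (hdeg : Module.finrank K L = 2)
    (rs : List A) (hmem : ∀ r ∈ rs, r ∈ maximalIdeal A) (hreg : IsRegular A rs)
    (hlen : (rs.length : WithBot ℕ∞) = ringKrullDim A) :
    ∃ (M : Type u) (_ : AddCommGroup M) (_ : Module R M), Module.Finite R M ∧
      ∃ rs' : List R, (∀ r ∈ rs', r ∈ maximalIdeal R) ∧ IsRegular M rs' ∧
        (rs'.length : WithBot ℕ∞) = ringKrullDim R := by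
  obtain ⟨ω, d0, hsq, hω2, hω⟩ := exists_omega (K := K) (L := L) R h2 hdeg
  have hR : ∀ r : R, ∃ a b : A, algebraMap R L r = algebraMap A L a + algebraMap A L b * ω :=
    fun r => integral_mem_pair h2 hdeg hsq hω2 hω
      ((Algebra.IsIntegral.isIntegral (R := A) r).algebraMap)
  have hinjAL : Function.Injective (algebraMap A L) := by
    rw [IsScalarTower.algebraMap_eq A K L]
    exact (algebraMap K L).injective.comp (IsFractionRing.injective A K)
  have hinjAR : Function.Injective (algebraMap A R) := by
    have h := hinjAL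
    rw [IsScalarTower.algebraMap_eq A R L] at h
    exact Function.Injective.of_comp h
  have hfaith : FaithfulSMul A R := (faithfulSMul_iff_algebraMap_injective A R).mpr hinjAR
  have hnoeth : IsNoetherianRing R := IsNoetherianRing.of_finite A R
  obtain ⟨M, hMdef⟩ : ∃ M : Submodule R L, M = Submodule.span R {1, ω} := ⟨_, rfl⟩
  have h1M : (1 : L) ∈ M := by rw [hMdef]; exact Submodule.subset_span (by simp)
  have hωM : ω ∈ M := by rw [hMdef]; exact Submodule.subset_span (by simp)
  have hM : ∀ m ∈ M, ∃ a b : A, m = algebraMap A L a + algebraMap A L b * ω := by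
    intro m hm
    rw [hMdef] at hm
    induction hm using Submodule.span_induction with
    | mem x hx =>
      rcases hx with rfl | rfl
      · exact ⟨1, 0, by simp⟩
      · exact ⟨0, 1, by simp⟩
    | zero => exact ⟨0, 0, by simp⟩
    | add x y _ _ hx hy =>
      obtain ⟨a, b, rfl⟩ := hx
      obtain ⟨a', b', rfl⟩ := hy
      exact ⟨a + a', b + b', by simp only [map_add]; ring⟩
    | smul r x _ hx =>
      obtain ⟨a, b, rfl⟩ := hx
      obtain ⟨u, v, huv⟩ := hR r
      refine ⟨u * a + v * b * d0, u * b + v * a, ?_⟩
      rw [Algebra.smul_def, huv]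
      simp only [map_add, map_mul]
      linear_combination (algebraMap A L v * algebraMap A L b) * hω2
  have hfin : Module.Finite R M := by
    rw [hMdef]
    exact Module.Finite.span_of_finite R (Set.toFinite {1, ω})
  have hnontriv : Nontrivial M := ⟨⟨⟨1, h1M⟩, 0, fun h => one_ne_zero (congrArg Subtype.val h)⟩⟩
  -- the `A`-linear parametrisation of `M` by `A × A`
  let f : A × A →ₗ[A] M :=
    (LinearMap.toSpanSingleton A M ⟨1, h1M⟩).coprod (LinearMap.toSpanSingleton A M ⟨ω, hωM⟩)
  have hf : ∀ p : A × A, ((f p : M) : L) = algebraMap A L p.1 + algebraMap A L p.2 * ω := by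
    intro p
    simp only [f, LinearMap.coprod_apply, LinearMap.toSpanSingleton_apply, Submodule.coe_add,
      Submodule.coe_smul_of_tower, Algebra.smul_def, mul_one]
  have hfinj : Function.Injective f := by
    rw [injective_iff_map_eq_zero]
    intro p hp
    have hp' : algebraMap A L p.1 + algebraMap A L p.2 * ω = 0 := by
      rw [← hf p, hp]; rfl
    have hp2 : p.2 = 0 := by
      by_contra hne
      have hne' : algebraMap A L p.2 ≠ 0 := fun h0 => hne (hinjAL (by rw [h0, map_zero]))
      apply hω
      refine ⟨-(algebraMap A K p.1) / algebraMap A K p.2, ?_⟩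
      rw [map_div₀, map_neg, ← IsScalarTower.algebraMap_apply A K L,
        ← IsScalarTower.algebraMap_apply A K L]
      field_simp
      linear_combination -hp'
    rw [hp2, map_zero, zero_mul, add_zero] at hp'
    have hp1 : p.1 = 0 := hinjAL (by rw [hp', map_zero])
    exact Prod.ext hp1 hp2
  have hfsurj : Function.Surjective f := by
    intro m
    obtain ⟨a, b, hab⟩ := hM m m.2
    refine ⟨(a, b), Subtype.ext ?_⟩
    rw [hf, hab]
  let e : (A × A) ≃ₗ[A] M := LinearEquiv.ofBijective f ⟨hfinj, hfsurj⟩
  have hw1 : IsWeaklyRegular (A × A) rs :=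
    (isWeaklyRegular_map_algebraMap_iff (A × A) (A × A) rs).mp
      (IsWeaklyRegular.of_flat (S := A × A) hreg.toIsWeaklyRegular)
  have hw2 : IsWeaklyRegular M rs := (LinearEquiv.isWeaklyRegular_congr e rs).mp hw1
  have hw3 : IsWeaklyRegular M (rs.map (algebraMap A R)) :=
    (isWeaklyRegular_map_algebraMap_iff R M rs).mpr hw2
  have hmem' : ∀ r ∈ rs.map (algebraMap A R), r ∈ maximalIdeal R := by
    intro r hr
    obtain ⟨a, ha, rfl⟩ := List.mem_map.mp hr
    have hloc : IsLocalHom (algebraMap A R) := Algebra.IsIntegral.isLocalHom A R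
    have ha' := hmem a ha
    rw [mem_maximalIdeal, mem_nonunits_iff] at ha' ⊢
    exact fun hu => ha' (hloc.map_nonunit a hu)
  have hreg' : IsRegular M (rs.map (algebraMap A R)) :=
    (IsLocalRing.isRegular_iff_isWeaklyRegular_of_subset_maximalIdeal hmem').mpr hw3
  refine ⟨M, inferInstance, inferInstance, hfin, rs.map (algebraMap A R), hmem', hreg', ?_⟩
  rw [List.length_map]
  apply le_antisymm
  · -- the length of a regular sequence is at most the dimension
    have hdim := Module.supportDim_add_length_eq_supportDim_of_isRegular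
      (rs.map (algebraMap A R)) hreg'
    rw [List.length_map] at hdim
    have hle : Module.supportDim R M ≤ ringKrullDim R := Module.supportDim_le_ringKrullDim R M
    have hnt : Nontrivial (M ⧸ Ideal.ofList (rs.map (algebraMap A R)) • (⊤ : Submodule R M)) :=
      Submodule.Quotient.nontrivial_iff.mpr hreg'.top_ne_smul.symm
    have hne := Module.supportDim_ne_bot_of_nontrivial R
      (M ⧸ Ideal.ofList (rs.map (algebraMap A R)) • (⊤ : Submodule R M))
    obtain ⟨k, hk⟩ := WithBot.ne_bot_iff_exists.mp hne
    rw [← hk] at hdim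
    calc (rs.length : WithBot ℕ∞) ≤ ((k + (rs.length : ℕ∞) : ℕ∞) : WithBot ℕ∞) :=
          WithBot.coe_le_coe.mpr le_add_self
      _ = Module.supportDim R M := by rw [← hdim]; rfl
      _ ≤ ringKrullDim R := hle
  · rw [hlen]
    exact ringKrullDim_le_of_isIntegral A R


end Vale.Agent.Lib.P190
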